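import Vale.Agent.P141.H770.LPcap

/-!
# P141, line (A): the operator cap of a labelled block as a matrix inequality

`CP_form` : the quadratic form of `H874.CP`; `cp_cap` : a cap `CapS q` on the rectangle gives
`(q • 1 - CP) ≥ 0`; `cp_lowG`, `cp_lowW` : for the low path, at every node.
-/

namespace Vale.Agent.P141.H770

open Finset Matrix Vale.Agent.P141.PL Vale.Agent.P141.PL.H103 Vale.Agent.P141.H103
open Vale.Agent.P141.H874 Vale.Agent.P141.H80 Vale.Agent.P141.H205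
open Vale.Agent.P075 (Ix val)

noncomputable section

variable {κ : Type*} [Fintype κ]

/-- form of a kernel without weight -/
theorem XR_form (b : ℤ → ℤ → κ → ℝ) (a : ℕ) (n x x' : ℤ) (z z' : κ → ℝ) :
    z ⬝ᵥ XR a b b x x' n *ᵥ z' = ((2 : ℝ) ^ a)⁻¹ * ∑ y ∈ iv a n,
      (z ⬝ᵥ b x y) * (z' ⬝ᵥ b x' y) := by
  unfold XR
  rw [smul_mulVec, dotProduct_smul, smul_eq_mul, sum_mulVec, dotProduct_sum]
  congr 1
  refine sum_congr rfl fun y _ => ?_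
  rw [vecMulVec_mulVec, op_smul_eq_smul, dotProduct_smul, smul_eq_mul, dotProduct_comm (b x' y)]
  ring

/-- **form of the static family** -/
theorem CP_form (b : ℤ → ℤ → κ → ℝ) (k a : ℕ) (n m : ℤ) (w : Ix k × κ → ℝ) :
    w ⬝ᵥ CP b k a n m *ᵥ w = ((2 : ℝ) ^ k * 2 ^ a)⁻¹ * ∑ y ∈ iv a n,
      (∑ x ∈ iv k m, bk k m w x ⬝ᵥ b x y) ^ 2 := by
  unfold CP
  rw [BM_form]
  simp only [XR_form, ← mul_sum]
  have e2 : ∀ y, (∑ x ∈ iv k m, bk k m w x ⬝ᵥ b x y) ^ 2 =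
      ∑ x ∈ iv k m, ∑ x' ∈ iv k m, (bk k m w x ⬝ᵥ b x y) * (bk k m w x' ⬝ᵥ b x' y) :=
    fun y => by rw [sq, sum_mul_sum]
  simp only [e2]
  have e3 : ∑ x ∈ iv k m, ∑ x' ∈ iv k m, ∑ y ∈ iv a n,
      (bk k m w x ⬝ᵥ b x y) * (bk k m w x' ⬝ᵥ b x' y) =
      ∑ y ∈ iv a n, ∑ x ∈ iv k m, ∑ x' ∈ iv k m,
      (bk k m w x ⬝ᵥ b x y) * (bk k m w x' ⬝ᵥ b x' y) := by
    rw [sum_comm' (s := iv a n) (t := fun _ => iv k m) (t' := iv k m) (s' := fun _ => iv a n)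
      (by simp [and_comm])]
    refine sum_congr rfl fun x _ => ?_
    rw [sum_comm]
  rw [e3, mul_inv]
  ring

variable [DecidableEq κ]

/-- a vector form of the cap is a matrix inequality -/
theorem CP_le_of {q : ℝ} {b : ℤ → ℤ → κ → ℝ} {k a : ℕ} {n m : ℤ}
    (h : ∀ z : ℤ → κ → ℝ, ∑ y ∈ iv a n, (∑ x ∈ iv k m, z x ⬝ᵥ b x y) ^ 2 ≤
      q * (2 ^ k * 2 ^ a) * ∑ x ∈ iv k m, z x ⬝ᵥ z x) :
    (q • (1 : Matrix (Ix k × κ) (Ix k × κ) ℝ) - CP b k a n m).PosSemidef := by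
  refine PosSemidef.of_dotProduct_mulVec_nonneg ?_ fun w => ?_
  · rw [IsHermitian, conjTranspose_eq_transpose_of_trivial, transpose_sub, transpose_smul,
      transpose_one, CP_symm]
  · rw [star_trivial, sub_mulVec, smul_mulVec, one_mulVec, dotProduct_sub, dotProduct_smul,
      smul_eq_mul, CP_form, sub_nonneg]
    have h1 := h (bk k m w)
    rw [bk_sq] at h1
    have hp : (0 : ℝ) < 2 ^ k * 2 ^ a := by positivity
    rw [inv_mul_le_iff₀ hp]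
    linarith

/-- **the cap of a rectangle**: `x` on the cell `(k, m)`, `y` on the cell `(a, n)` -/
theorem cp_cap {q : ℝ} (hq : 0 ≤ q) {b : ℤ → ℤ → κ → ℝ} {k a : ℕ} {n m : ℤ}
    (h : CapS q k a b m n) :
    (q • (1 : Matrix (Ix k × κ) (Ix k × κ) ℝ) - CP b k a n m).PosSemidef :=
  CP_le_of fun z => capS_dual hq h z

variable {Q : ℕ → ℤ → ℤ → Prop} {F : ℕ → ℤ → ℤ → κ → ℝ}

/-- the cap of the input at the affected squares is inherited at every node -/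
theorem cp_lowG {q : ℝ} (hq : 0 ≤ q) {Pr : (k : ℕ) → ℤ → ℤ → Matrix (Ix k) (Ix k) ℝ}
    (ht : ∀ k n m, (Pr k n m)ᵀ = Pr k n m) (hi : ∀ k n m, Pr k n m * Pr k n m = Pr k n m)
    (hQ0 : ∀ n m, Q 0 n m) (h : ∀ k n m, Q k n m → CapS q k k (F (k + 1)) n m) {k a : ℕ}
    (hka : k ≤ a) (n m : ℤ) :
    (q • (1 : Matrix (Ix k × κ) (Ix k × κ) ℝ) - CP (lowG Q Pr F (k + 1)) k a n m).PosSemidef := by
  obtain ⟨r, rfl⟩ : ∃ r, a = k + r := ⟨a - k, by omega⟩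
  exact cp_cap hq (capS_mid_iter (capS_lowG hq ht hi hQ0 h k) r m n)

/-- **the operator cap of the low path of the weighted cut** at every node -/
theorem cp_lowW {q c : ℝ} (hq : 0 ≤ q) {K : ℤ → ℕ → ℤ → Matrix κ κ ℝ} (hQ0 : ∀ n m, Q 0 n m)
    (h : ∀ k n m, Q k n m → CapS q k k (F (k + 1)) n m) {k a : ℕ} (hka : k ≤ a) (n m : ℤ) :
    (q • (1 : Matrix (Ix k × κ) (Ix k × κ) ℝ) -
      CP (lowW Q K c F (k + 1)) k a n m).PosSemidef :=
  cp_lowG hq (prW_tr K c F) (prW_idem K c F) hQ0 h hka n m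

end

end Vale.Agent.P141.H770
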