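import Vale.Agent.P141.H874.LightI
import Vale.Agent.P141.H80.LightCut

/-!
# P141, line (A): the cap of the light slot as a matrix inequality

`BM_form`, `LP_form` : the quadratic forms of `H874.BM`, `H874.LP`.
`LP_le_of` : a vector form of the cap gives `(q • 1 - LP) ≥ 0`.
`lp_cap` : for the low path of the weighted cut, `q = √l * c` at every node.
-/

namespace Vale.Agent.P141.H770

open Finset Matrix Vale.Agent.P141.PL Vale.Agent.P141.PL.H103 Vale.Agent.P141.H103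
open Vale.Agent.P141.H874 Vale.Agent.P141.H80
open Vale.Agent.P075 (Ix val)

noncomputable section

variable {κ : Type*} [Fintype κ]

/-- the function on the cell `m` of scale `k` of a vector with block index -/
def bk (k : ℕ) (m : ℤ) (w : Ix k × κ → ℝ) (x : ℤ) : κ → ℝ := fun i =>
  ∑ j : Ix k, if 2 ^ k * m + (val k j : ℤ) = x then w (j, i) else 0

omit [Fintype κ] in
theorem bk_val (k : ℕ) (m : ℤ) (w : Ix k × κ → ℝ) (j : Ix k) :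
    bk k m w (2 ^ k * m + val k j) = fun i => w (j, i) := by
  funext i
  unfold bk
  rw [sum_eq_single j]
  · rw [if_pos rfl]
  · intro j' _ hj'
    rw [if_neg]
    intro h
    apply hj'
    apply H205.val_inj
    have : ((val k j' : ℕ) : ℤ) = (val k j : ℕ) := by linarith
    exact_mod_cast this
  · intro h
    exact absurd (mem_univ _) h

/-- the square of a vector -/
theorem bk_sq (k : ℕ) (m : ℤ) (w : Ix k × κ → ℝ) :
    ∑ x ∈ iv k m, bk k m w x ⬝ᵥ bk k m w x = w ⬝ᵥ w := by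
  rw [H588.sum_iv]
  simp only [bk_val, dotProduct, Fintype.sum_prod_type]

/-- **form of a block matrix** -/
theorem BM_form (k : ℕ) (m : ℤ) (F : ℤ → ℤ → Matrix κ κ ℝ) (w : Ix k × κ → ℝ) :
    w ⬝ᵥ BM k m F *ᵥ w = ((2 : ℝ) ^ k)⁻¹ * ∑ x ∈ iv k m, ∑ x' ∈ iv k m,
      bk k m w x ⬝ᵥ F x x' *ᵥ bk k m w x' := by
  rw [H588.sum_iv]
  simp only [H588.sum_iv k m, bk_val, dotProduct, mulVec, BM, Fintype.sum_prod_type]
  rw [mul_sum]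
  refine sum_congr rfl fun j _ => ?_
  rw [mul_sum]
  simp only [mul_sum]
  rw [sum_comm]
  refine sum_congr rfl fun j' _ => sum_congr rfl fun i _ => sum_congr rfl fun i' _ => ?_
  ring

variable [DecidableEq κ]

/-- form of the light kernel -/
theorem LM_form (l : ℝ) {K : ℤ → ℕ → ℤ → Matrix κ κ ℝ} (b : ℤ → ℤ → κ → ℝ) (a : ℕ) (n x x' : ℤ)
    (hK : ((K x a n)⁻¹)ᵀ = (K x a n)⁻¹) (z z' : κ → ℝ) :
    z ⬝ᵥ LM l K b a n x x' *ᵥ z' = l * (((2 : ℝ) ^ a)⁻¹ * ∑ y ∈ iv a n,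
      (((K x a n)⁻¹ *ᵥ z) ⬝ᵥ b x y) * (((K x' a n)⁻¹ *ᵥ z') ⬝ᵥ b x' y)) := by
  unfold LM XR
  rw [smul_mulVec, dotProduct_smul, smul_eq_mul, Matrix.mul_smul, Matrix.smul_mul, smul_mulVec,
    dotProduct_smul, smul_eq_mul, Matrix.mul_sum, Matrix.sum_mul]
  congr 2
  have e : (∑ y ∈ iv a n, (K x a n)⁻¹ * vecMulVec (b x y) (b x' y) * (K x' a n)⁻¹) *ᵥ z' =
      ∑ y ∈ iv a n, ((K x a n)⁻¹ * vecMulVec (b x y) (b x' y) * (K x' a n)⁻¹) *ᵥ z' := by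
    rw [sum_mulVec]
  rw [e, dotProduct_sum]
  refine sum_congr rfl fun y _ => ?_
  have e2 : ((K x a n)⁻¹ * vecMulVec (b x y) (b x' y) * (K x' a n)⁻¹) *ᵥ z' =
      (b x' y ⬝ᵥ ((K x' a n)⁻¹ *ᵥ z')) • ((K x a n)⁻¹ *ᵥ b x y) := by
    rw [Matrix.mul_assoc, ← mulVec_mulVec, ← mulVec_mulVec, vecMulVec_mulVec, op_smul_eq_smul,
      mulVec_smul]
  have e3 : z ⬝ᵥ ((K x a n)⁻¹ *ᵥ b x y) = ((K x a n)⁻¹ *ᵥ z) ⬝ᵥ b x y := by
    rw [dotProduct_mulVec, ← mulVec_transpose, hK]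
  rw [e2, dotProduct_smul, smul_eq_mul, e3, dotProduct_comm (b x' y)]
  ring

/-- **form of the light family** -/
theorem LP_form (l : ℝ) {K : ℤ → ℕ → ℤ → Matrix κ κ ℝ} (b : ℤ → ℤ → κ → ℝ) (k a : ℕ) (n m : ℤ)
    (hK : ∀ x, ((K x a n)⁻¹)ᵀ = (K x a n)⁻¹) (w : Ix k × κ → ℝ) :
    w ⬝ᵥ LP l K b k a n m *ᵥ w = ((2 : ℝ) ^ k * 2 ^ a)⁻¹ * (l * ∑ y ∈ iv a n,
      (∑ x ∈ iv k m, ((K x a n)⁻¹ *ᵥ bk k m w x) ⬝ᵥ b x y) ^ 2) := by
  unfold LP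
  rw [BM_form]
  have e : ∀ x x', bk k m w x ⬝ᵥ LM l K b a n x x' *ᵥ bk k m w x' =
      l * (((2 : ℝ) ^ a)⁻¹ * ∑ y ∈ iv a n, (((K x a n)⁻¹ *ᵥ bk k m w x) ⬝ᵥ b x y) *
        (((K x' a n)⁻¹ *ᵥ bk k m w x') ⬝ᵥ b x' y)) :=
    fun x x' => LM_form l b a n x x' (hK x) _ _
  simp only [e, ← mul_sum]
  have e2 : ∀ y, (∑ x ∈ iv k m, ((K x a n)⁻¹ *ᵥ bk k m w x) ⬝ᵥ b x y) ^ 2 =
      ∑ x ∈ iv k m, ∑ x' ∈ iv k m, (((K x a n)⁻¹ *ᵥ bk k m w x) ⬝ᵥ b x y) *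
        (((K x' a n)⁻¹ *ᵥ bk k m w x') ⬝ᵥ b x' y) := fun y => by rw [sq, sum_mul_sum]
  simp only [e2]
  have e3 : ∑ x ∈ iv k m, ∑ x' ∈ iv k m, ∑ y ∈ iv a n,
      (((K x a n)⁻¹ *ᵥ bk k m w x) ⬝ᵥ b x y) * (((K x' a n)⁻¹ *ᵥ bk k m w x') ⬝ᵥ b x' y) =
      ∑ y ∈ iv a n, ∑ x ∈ iv k m, ∑ x' ∈ iv k m,
      (((K x a n)⁻¹ *ᵥ bk k m w x) ⬝ᵥ b x y) * (((K x' a n)⁻¹ *ᵥ bk k m w x') ⬝ᵥ b x' y) := by
    rw [sum_comm' (s := iv a n) (t := fun _ => iv k m) (t' := iv k m) (s' := fun _ => iv a n)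
      (by simp [and_comm])]
    refine sum_congr rfl fun x _ => ?_
    rw [sum_comm]
  rw [e3, mul_inv]
  ring

/-- **A vector form of the cap is a matrix inequality.** -/
theorem LP_le_of {l q : ℝ} {K : ℤ → ℕ → ℤ → Matrix κ κ ℝ} {b : ℤ → ℤ → κ → ℝ} {k a : ℕ} {n m : ℤ}
    (hK : ∀ x, (K x a n).PosDef)
    (h : ∀ z : ℤ → κ → ℝ, l * ∑ y ∈ iv a n, (∑ x ∈ iv k m, ((K x a n)⁻¹ *ᵥ z x) ⬝ᵥ b x y) ^ 2 ≤
      q * (2 ^ k * 2 ^ a) * ∑ x ∈ iv k m, z x ⬝ᵥ z x) :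
    (q • (1 : Matrix (Ix k × κ) (Ix k × κ) ℝ) - LP l K b k a n m).PosSemidef := by
  have hs : ∀ x, ((K x a n)⁻¹)ᵀ = (K x a n)⁻¹ := fun x => H874.herm_tr (hK x).isHermitian.inv
  have hsy : (LP l K b k a n m)ᵀ = LP l K b k a n m := by
    unfold LP
    refine BM_symm fun x x' => ?_
    unfold LM
    rw [transpose_smul, transpose_mul, transpose_mul, XR_swap, hs, hs, Matrix.mul_assoc]
  refine PosSemidef.of_dotProduct_mulVec_nonneg ?_ fun w => ?_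
  · rw [IsHermitian, conjTranspose_eq_transpose_of_trivial, transpose_sub, transpose_smul,
      transpose_one, hsy]
  · rw [star_trivial, sub_mulVec, smul_mulVec, one_mulVec, dotProduct_sub, dotProduct_smul,
      smul_eq_mul, LP_form l b k a n m hs, sub_nonneg]
    have h1 := h (bk k m w)
    rw [bk_sq] at h1
    have hp : (0 : ℝ) < 2 ^ k * 2 ^ a := by positivity
    rw [inv_mul_le_iff₀ hp]
    linarith

/-- **The cap of the light family of the low path**: `LP ≤ √l c` at every node. -/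
theorem lp_cap {l c : ℝ} {N : ℕ} {G K : ℤ → ℕ → ℤ → Matrix κ κ ℝ} {Q : ℕ → ℤ → ℤ → Prop}
    {F : ℕ → ℤ → ℤ → κ → ℝ} (hc : 0 < c) (h : ∀ x, H420.Tr l N (G x) (K x))
    (hQ0 : ∀ n m, Q 0 n m) {k a : ℕ} (hka : k ≤ a) (haN : a ≤ N) (n m : ℤ) :
    ((√l * c) • (1 : Matrix (Ix k × κ) (Ix k × κ) ℝ) -
      LP l K (lowW Q K c F (k + 1)) k a n m).PosSemidef := by
  obtain ⟨r, rfl⟩ : ∃ r, a = k + r := ⟨a - k, by omega⟩
  exact LP_le_of (fun x => (h x).pdK _ _) fun z => cap_node hc h hQ0 haN m n z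

end

end Vale.Agent.P141.H770
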